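import Vale.Agent.P011UHR.Case
import Mathlib.FieldTheory.Galois.Infinite
import Mathlib.Algebra.Polynomial.Expand
import Mathlib.LinearAlgebra.Matrix.Charpoly.Coeff

/-!
Composite fields and the Frobenius twist.
-/

set_option autoImplicit false
set_option linter.all false

namespace Vale.Agent.P011UHR2

open Polynomial Vale.Agent.P011L Vale.Agent.P183CH Vale.Agent.P011U Vale.Agent.P011UHB

theorem cmp : P011UHR.CMP := by
  intro k K _ _ _ _ l L F θ hl hd hG hF hL
  have hfd : FiniteDimensional k L := Module.finite_of_finrank_pos (hd ▸ hl.pos)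
  let ρ := IntermediateField.restrictRestrictAlgEquivMapHom k L F K
  have hρ : ∀ φ, ρ φ = 1 ↔ ∀ x ∈ L, φ x = x := fun φ =>
    ⟨fun h x hx => (IntermediateField.restrictRestrictAlgEquivMapHom_apply L F φ ⟨x, hx⟩).symm.trans
      (by rw [show IntermediateField.restrictRestrictAlgEquivMapHom k L F K φ = 1 from h]; rfl),
    fun h => AlgEquiv.ext fun x => Subtype.ext
      ((IntermediateField.restrictRestrictAlgEquivMapHom_apply L F φ x).trans (h x x.2))⟩
  have hk : (IntermediateField.adjoin F (L : Set K)).fixingSubgroup = ρ.ker := by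
    ext φ
    rw [MonoidHom.mem_ker, hρ, ← Subgroup.zpowers_le, ← IntermediateField.le_iff_le,
      IntermediateField.adjoin_le_iff]
    refine ⟨fun h x hx => (IntermediateField.mem_fixedField_iff _ _).1 (h hx) φ
      (Subgroup.mem_zpowers φ), fun h x hx => ?_⟩
    have : Subgroup.zpowers φ ≤ MulAction.stabilizer _ x := Subgroup.zpowers_le.2 (h x hx)
    exact (IntermediateField.mem_fixedField_iff _ _).2 fun g hg => this hg
  refine ⟨IntermediateField.adjoin F (L : Set K), fun x => ?_, ?_, ?_⟩
  · rw [← IntermediateField.mem_restrictScalars k, IntermediateField.restrictScalars_adjoin_eq_sup,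
      IntermediateField.adjoin_self, sup_comm]
  · rw [IntermediateField.finrank_eq_fixingSubgroup_index, hk, Subgroup.index_ker]
    have hc : Nat.card (L ≃ₐ[k] L) = l := (IsGalois.card_aut_eq_finrank k L).trans hd
    have : Fact (Nat.card (L ≃ₐ[k] L)).Prime := ⟨hc ▸ hl⟩
    rcases ρ.range.eq_bot_or_eq_top_of_prime_card with h | h
    · let θ' : K ≃ₐ[F] K := { θ.toRingEquiv with commutes' := fun x => hF x x.2 }
      have : ρ θ' = 1 := Subgroup.mem_bot.1 (h ▸ ⟨θ', rfl⟩)
      exact absurd ((hρ θ').1 this) hL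
    · rw [h, Subgroup.card_top, hc]
  · exact (InfiniteGalois.normal_iff_isGalois _).1 (hk ▸ inferInstance)

variable {K : Type} [Field K]

theorem red (φ : K →+* K) (n : ℕ)
    (H : ∀ g : K[X], Irreducible g → g.natDegree ≤ n → (g.map φ).Splits) (f : K[X])
    (hf : f.natDegree ≤ n) : (f.map φ).Splits := by
  induction f using WfDvdMonoid.induction_on_irreducible with
  | zero => simp
  | unit u hu => exact Splits.of_natDegree_le_one (by
      rw [natDegree_map, natDegree_eq_zero_of_isUnit hu]; exact zero_le_one)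
  | mul a g ha hg ih =>
    rw [natDegree_mul hg.ne_zero ha] at hf
    rw [Polynomial.map_mul]
    exact (H g hg (by omega)).mul (ih (by omega))

theorem sq_of (l : ℕ) (φ : K →+* K)
    (H : ∀ g : K[X], Irreducible g → g.natDegree < l → g.natDegree ≤ 3 → (g.map φ).Splits) :
    P011UHR.Sq l φ := fun n hn h3 B => by
  rw [Matrix.charpoly_map]
  refine red φ n (fun g hg e => H g hg (by omega) (by omega)) _ ?_
  simp

theorem spl : P011UHR.SPL := by
  intro k K _ _ _ _ _ D _ T l hP
  have : IsSepClosed K := IsSepClosure.sep_closed k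
  by_cases h : ∃ p : ℕ, p.Prime ∧ p < l ∧ (p : K) = 0
  · obtain ⟨p, hp, hl, h0⟩ := h
    obtain ⟨N, hN, hQ⟩ := hP p hp hl h0
    have : CharP K p := (CharP.charP_iff_prime_eq_zero hp).2 h0
    have : ExpChar K p := ExpChar.prime hp
    refine ⟨iterateFrobenius K p N, p ^ N, fun _ => rfl, hQ, sq_of l _ fun g hg _ h3 => ?_⟩
    by_cases hd : derivative g = 0
    · obtain ⟨N, rfl⟩ : ∃ M, N = M + 1 := ⟨N - 1, by omega⟩
      have e := expand_contract p hd hp.ne_zero
      have e1 := natDegree_expand p (contract p g)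
      rw [e] at e1
      have h1 : (contract p g).natDegree ≤ 1 := by
        by_contra hc
        have := Nat.mul_le_mul (not_le.1 hc) hp.two_le
        omega
      rw [iterateFrobenius_add, iterateFrobenius_one, ← Polynomial.map_map, ← e,
        map_frobenius_expand]
      exact ((Splits.of_natDegree_le_one h1).pow p).map _
    · exact (IsSepClosed.splits_of_separable g ((separable_iff_derivative_ne_zero hg).2 hd)).map _
  · refine ⟨RingHom.id K, 1, fun x => (pow_one x).symm,
      ⟨MonoidHom.id _, 1, 1, ⟨fun _ _ => rfl, fun i u => by simp⟩, fun _ _ _ => rfl⟩,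
      sq_of l _ fun g hg hl _ => ?_⟩
    refine (IsSepClosed.splits_of_separable g
      ((separable_iff_derivative_ne_zero hg).2 fun hd => h ?_)).map _
    obtain ⟨m, hm⟩ : ∃ m, g.natDegree = m + 1 := ⟨g.natDegree - 1, by have := hg.natDegree_pos; omega⟩
    have e := congrArg (coeff · m) hd
    simp only [coeff_derivative, coeff_zero, ← hm] at e
    have e2 : ((m + 1 : ℕ) : K) = 0 := by
      simpa using (mul_eq_zero.1 e).resolve_left (leadingCoeff_ne_zero.2 hg.ne_zero)
    obtain ⟨p, hp, hp0⟩ : ∃ p ∈ (m + 1).primeFactorsList, (p : K) = 0 := by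
      rw [← Nat.prod_primeFactorsList (n := m + 1) (by omega), Nat.cast_list_prod,
        List.prod_eq_zero_iff, List.mem_map] at e2
      exact e2
    exact ⟨p, Nat.prime_of_mem_primeFactorsList hp,
      lt_of_le_of_lt (Nat.le_of_mem_primeFactorsList hp) (hm ▸ hl), hp0⟩

end Vale.Agent.P011UHR2
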